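import Vale.Agent.P352R.Lc.Wk
import Vale.Agent.P352R.Cf.Pub
import Vale.Agent.P352X.EG.LIFT

/-!
# P352R, block Lc: affiliation to the hull of a generated net (helper80)
-/

set_option autoImplicit false
set_option linter.all false

open Filter Topology Set

noncomputable section

namespace Vale.Agent.P352R.Lc

open P352 GF H246 H15 BW P352X
open P352X.Fss.G (M1)
open UniformSpace (Completion)

variable {D : Type*} [NormedAddCommGroup D] [InnerProductSpace ℂ D] {Q : Theory D}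
  {O S : Set V} {f : Fn} {B : Fld D} {M : VonNeumannAlgebra (Completion D)}

theorem cov_cnt (R : M1 Q) (h : P.CntF Q) (s : ℝ) (hs : 0 < s) : Cov Q s GF.one 0 :=
  ⟨Function.Surjective.denseRange fun v => ⟨_, sur1 R hs 0 v⟩, fun B hB => by
    obtain ⟨C, a, -, b⟩ := h.cov s _ B hs H496.isLor_one hB
    exact ⟨1, fun _ => 1, fun _ => C, fun _ => a, fun f v hf => (b f v hf).trans (by simp)⟩⟩

/-- **affiliation to the hull**, for all regions -/
theorem aff_hull (R : M1 Q) (cv : ∀ s, 0 < s → Cov Q s GF.one 0) (hO : O ∈ 𝓝 (0 : V))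
    (hb : Bornology.IsBounded O) (af : ∀ B f, Q.fld B → In O f → Aff M (B f))
    (N0 : Set V → VonNeumannAlgebra (Completion D))
    (mono : ∀ S S', S ⊆ S' → ∀ X ∈ N0 S, X ∈ N0 S')
    (gen : ∀ S s y, 0 < s → sim s GF.one y '' O ⊆ S → ∀ X ∈ M,
      ∀ X' : Completion D →L[ℂ] Completion D,
        (∀ z, X' (Ue Q s GF.one y z) = Ue Q s GF.one y (X z)) → X' ∈ N0 S)
    {N : VonNeumannAlgebra (Completion D)}
    (hN : ∀ X, (∀ S', IsOpen S' → S ⊆ S' → X ∈ N0 S') → X ∈ N) (hB : Q.fld B) (hf : In S f) :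
    Aff N (B f) := by
  obtain ⟨B', hB', ha⟩ := Q.adj B hB
  refine ⟨B' (bar f), EG.bic_row D {Y | ∃ S', IsOpen S' ∧ S ⊆ S' ∧ Y ∈ (N0 S').commutant} N _ _
    ⟨univ, isOpen_univ, subset_univ _, one_mem _⟩ ?_ ?_ (fun X hX => hN X fun S' a b => ?_)
    (fun v w => ha f v w hf.1) ?_⟩
  · rintro Y ⟨S₁, a, b, c⟩ Y' ⟨S₂, a', b', c'⟩
    have m {S' S'' : Set V} (h : S' ⊆ S'') {Y} (k : Y ∈ (N0 S'').commutant) :
        Y ∈ (N0 S').commutant := VonNeumannAlgebra.mem_commutant_iff.2 fun X hX =>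
      VonNeumannAlgebra.mem_commutant_iff.1 k X (mono _ _ h X hX)
    exact ⟨S₁ ∩ S₂, a.inter a', subset_inter b b',
      mul_mem (m inter_subset_left c) (m inter_subset_right c')⟩
  · rintro Y ⟨S₁, a, b, c⟩
    exact ⟨S₁, a, b, star_mem c⟩
  · rw [← (N0 S').commutant_commutant]
    exact VonNeumannAlgebra.mem_commutant_iff.2 fun Y hY => hX Y ⟨S', a, b, hY⟩
  · rintro Y ⟨S', a, b, c⟩ v w
    exact wk R cv hO hb af a (fun s y hs h X hX X' e =>
      (VonNeumannAlgebra.mem_commutant_iff.1 c X' (gen S' s y hs h X hX X' e)).symm) hB hB' ha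
      ⟨hf.1, hf.2.1, hf.2.2.trans b⟩ v w

end Vale.Agent.P352R.Lc
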