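import Vale.Agent.P352X.Api2b

/-!
# P352R, block Lc: partitions of unity by small copies of one region (helper80)
-/

set_option autoImplicit false
set_option linter.all false

open Filter Topology Set

namespace Vale.Agent.P352R.Lc

open P352 GF H246 P352X

variable {O S : Set V} {s : ℝ} {L : Ix → V} {y : V} {f : Fn}

theorem sim_one (s : ℝ) (a x : V) : sim s GF.one a x = a + s • x := by
  funext n
  simp [sim, GF.one, bas]

/-- small copies of `O` are a basis of neighbourhoods -/
theorem small (hO : O ∈ 𝓝 (0 : V)) (hb : Bornology.IsBounded O) (hS : S ∈ 𝓝 y) :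
    ∃ s, 0 < s ∧ sim s GF.one y '' O ⊆ S ∧ sim s GF.one y '' O ∈ 𝓝 y := by
  obtain ⟨ε, hε, h⟩ := Metric.mem_nhds_iff.1 hS
  obtain ⟨r, hr, k⟩ := hb.subset_ball_lt 0 0
  obtain ⟨δ, hδ, d⟩ := Metric.mem_nhds_iff.1 hO
  have p : 0 < ε / r := div_pos hε hr
  refine ⟨ε / r, p, ?_, Metric.mem_nhds_iff.2 ⟨ε / r * δ, mul_pos p hδ, fun z hz =>
    ⟨(ε / r)⁻¹ • (z - y), d ?_, ?_⟩⟩⟩
  · rintro _ ⟨x, hx, rfl⟩
    refine h ?_
    rw [sim_one, mem_ball_iff_norm, add_sub_cancel_left, norm_smul, Real.norm_of_nonneg p.le,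
      ← div_mul_cancel₀ ε hr.ne', div_mul_cancel₀ ε hr.ne']
    calc ε / r * ‖x‖ < ε / r * r := mul_lt_mul_of_pos_left (mem_ball_zero_iff.1 (k hx)) p
      _ = ε := div_mul_cancel₀ ε hr.ne'
  · rw [mem_ball_zero_iff, norm_smul, Real.norm_of_nonneg (inv_pos.2 p).le, inv_mul_lt_iff₀ p]
    exact mem_ball_iff_norm.1 hz
  · rw [sim_one, smul_inv_smul₀ p.ne', add_sub_cancel]

/-- **partition of unity**: induction over test functions supported in small copies of `O` -/
theorem pou (hO : O ∈ 𝓝 (0 : V)) (hb : Bornology.IsBounded O) (hS : IsOpen S) {P : Fn → Prop}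
    (h0 : P fun _ => 0) (hadd : ∀ f g, In S f → In S g → P f → P g → P fun x => f x + g x)
    (hl : ∀ s y f, 0 < s → sim s GF.one y '' O ⊆ S → In (sim s GF.one y '' O) f → P f)
    (hf : In S f) : P f :=
  Ap.in_ind h0 hadd (fun x hx => by
    obtain ⟨s, a, b, c⟩ := small hO hb (hS.mem_nhds hx)
    exact ⟨_, c, fun f h => hl s x f a b ⟨h.1, h.2.1, h.2.2.trans inter_subset_left⟩⟩) hf

/-- pull back of a test function in a copy of `O` -/
theorem in_pull (hs : 0 < s) (hL : IsLor L) (inj : Function.Injective (sim s L y))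
    (hf : In (sim s L y '' O) f) : In O fun x => f (sim s L y x) := by
  have := Ap.in_sim hs hL y hf
  rwa [preimage_image_eq _ inj] at this

theorem inj_one (hs : 0 < s) : Function.Injective (sim s GF.one y) := fun a b h => by
  rw [sim_one, sim_one] at h
  exact smul_right_injective _ hs.ne' (add_left_cancel h)

theorem in_pull1 (hs : 0 < s) (hf : In (sim s GF.one y '' O) f) :
    In O fun x => f (sim s GF.one y x) := in_pull hs H496.isLor_one (inj_one hs) hf

end Vale.Agent.P352R.Lc
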