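import Vale.Agent.P352R.Lc.Pou
import Vale.Agent.P352X.CG.FS

/-!
# P352R, block Lc: weak commutation with the commutant of the generated algebras (helper80)
-/

set_option autoImplicit false
set_option linter.all false

open Filter Topology Set

noncomputable section

namespace Vale.Agent.P352R.Lc

open P352 GF H246 H15 BW P352X
open P352X.Fss.G (M1)
open UniformSpace (Completion)

variable {D : Type*} [NormedAddCommGroup D] [InnerProductSpace ℂ D] {Q : Theory D}
  {O S : Set V} {s : ℝ} {y : V} {f : Fn} {B : Fld D} {M : VonNeumannAlgebra (Completion D)}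

theorem one_one : (fun m => sim 1 GF.one 0 (GF.one m)) = GF.one := by
  funext m
  rw [sim_one, one_smul, zero_add]

theorem mul1 (R : M1 Q) (hs : 0 < s) {s' : ℝ} (hs' : 0 < s') (y y' : V) (v : D) :
    Q.U s GF.one y (Q.U s' GF.one y' v) = Q.U (s * s') GF.one (y + s • y') v := by
  rw [R _ _ _ _ _ _ v hs hs' H496.isLor_one H496.isLor_one (.inl rfl), one_one, sim_one]

theorem sur1 (R : M1 Q) (hs : 0 < s) (y : V) (v : D) :
    Q.U s GF.one y (Q.U s⁻¹ GF.one (-(s⁻¹ • y)) v) = v := by
  rw [mul1 R hs (inv_pos.2 hs), mul_inv_cancel₀ hs.ne', smul_neg, smul_inv_smul₀ hs.ne',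
    add_neg_cancel]
  exact H755.Uone v

/-- the transformation law under dilations and translations -/
theorem law (R : M1 Q) (cv : ∀ s, 0 < s → Cov Q s GF.one 0) (hB : Q.fld B) (hs : 0 < s) (y : V) :
    ∃ (n : ℕ) (c : Fin n → ℂ) (C : Fin n → Fld D), (∀ i, Q.fld (C i)) ∧ ∀ f v, IsTest f →
      B f (Q.U s GF.one y v) =
        Q.U s GF.one y (∑ i, c i • C i (fun x => f (sim s GF.one y x)) v) := by
  have o := H496.isLor_one
  obtain ⟨n, c, C, p, q⟩ := (cv s⁻¹ (inv_pos.2 hs)).2 B hB
  refine ⟨n, c, C, p, fun f v hf => ?_⟩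
  have e (u : D) : Q.U s GF.one y u = Q.U 1 GF.one y (Q.U s GF.one 0 u) := by
    rw [mul1 R one_pos hs, one_mul, smul_zero, add_zero]
  have i (u : D) : Q.U s GF.one 0 (Q.U s⁻¹ GF.one 0 u) = u := by
    simpa using sur1 R hs 0 u
  have i' (u : D) : Q.U s⁻¹ GF.one 0 (Q.U s GF.one 0 u) = u := (ueI Q hs o 0).injective (i _)
  have := q _ (Q.U s GF.one 0 v) (Ap.test_sim hs o y hf)
  rw [i'] at this
  rw [e, e, Q.transl B y f _ hB hf, ← this, i]
  congr 2
  funext x
  simp only [sim_one, zero_add, one_smul, smul_inv_smul₀ hs.ne']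

/-- `U` as a unitary of the completion -/
def W (R : M1 Q) (hs : 0 < s) (y : V) : Completion D ≃ₗᵢ[ℂ] Completion D :=
  LinearIsometryEquiv.ofSurjective (ueC Q hs H496.isLor_one y) fun z =>
    ⟨Ue Q s⁻¹ GF.one (-(s⁻¹ • y)) z, Completion.induction_on z
      (isClosed_eq ((ue_cont _ _ _).comp (ue_cont _ _ _)) continuous_id) fun v => by
        rw [ueC_apply, ue_coe (inv_pos.2 hs) H496.isLor_one, ue_coe hs H496.isLor_one,
          sur1 R hs]⟩

theorem W_ap (R : M1 Q) (hs : 0 < s) (y : V) (z : Completion D) :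
    W R hs y z = Ue Q s GF.one y z := rfl

/-- one copy of `O` -/
theorem wk1 (R : M1 Q) (cv : ∀ s, 0 < s → Cov Q s GF.one 0)
    (af : ∀ B f, Q.fld B → In O f → Aff M (B f)) (hs : 0 < s)
    {Y : Completion D →L[ℂ] Completion D} (hY : ∀ X ∈ M, ∀ X' : Completion D →L[ℂ] Completion D,
      (∀ z, X' (Ue Q s GF.one y z) = Ue Q s GF.one y (X z)) → Y * X' = X' * Y)
    (hB : Q.fld B) (hf : In (sim s GF.one y '' O) f) {Z : D → D}
    (hZ : ∀ v w, inner ℂ (B f v) w = inner ℂ v (Z w)) (v w : D) :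
    inner ℂ ((Z w : D) : Completion D) (Y v) = inner ℂ (w : Completion D) (Y (B f v : D)) := by
  have o := H496.isLor_one
  obtain ⟨n, c, C, p, q⟩ := law R cv hB hs y
  choose X' a b using fun i => af (C i) _ (p i) (in_pull1 hs hf)
  let u := W R hs y
  let U : Completion D →L[ℂ] Completion D := u.toContinuousLinearEquiv
  let U' : Completion D →L[ℂ] Completion D := u.symm.toContinuousLinearEquiv
  have k : U' * Y * U ∈ M.commutant := VonNeumannAlgebra.mem_commutant_iff.2 fun X hX => by
    have := hY X hX (U * X * U') fun z => congrArg (fun t => u (X t)) (u.symm_apply_apply z)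
    ext z
    have := congrArg (fun T : Completion D →L[ℂ] Completion D => u.symm (T (u z))) this
    change u.symm (Y (u (X (u.symm (u z))))) = u.symm (u (X (u.symm (Y (u z))))) at this
    rw [u.symm_apply_apply, u.symm_apply_apply] at this
    exact this.symm
  obtain ⟨v, rfl⟩ : ∃ v', Q.U s GF.one y v' = v := ⟨_, sur1 R hs y v⟩
  obtain ⟨w, rfl⟩ : ∃ v', Q.U s GF.one y v' = w := ⟨_, sur1 R hs y w⟩
  have e : Z (Q.U s GF.one y w) = Q.U s GF.one y (∑ i, star (c i) • X' i w) :=
    ext_inner_left ℂ fun t => by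
      obtain ⟨t, rfl⟩ : ∃ v', Q.U s GF.one y v' = t := ⟨_, sur1 R hs y t⟩
      rw [← hZ, q f t hf.1, Q.U_inner _ _ _ _ _ hs o, Q.U_inner _ _ _ _ _ hs o, sum_inner,
        inner_sum]
      exact Finset.sum_congr rfl fun i _ => by rw [inner_smul_left, inner_smul_right, a]; rfl
  have m (z z' : Completion D) : inner ℂ (u z) (Y (u z')) = inner ℂ z ((U' * Y * U) z') := by
    rw [← u.inner_map_map z]
    exact congrArg _ (u.apply_symm_apply _).symm
  have cs (x : Fin n → D) (c : Fin n → ℂ) :
      ((∑ i, c i • x i : D) : Completion D) = ∑ i, c i • (x i : Completion D) := by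
    change Completion.toComplL (𝕜 := ℂ) _ = _
    simp only [map_sum, map_smul]
    rfl
  rw [e, q f v hf.1]
  simp only [← ue_coe hs o, ← W_ap R hs]
  refine (m _ _).trans (Eq.trans ?_ (m _ _).symm)
  rw [cs, cs, sum_inner, map_sum, inner_sum]
  refine Finset.sum_congr rfl fun i _ => ?_
  rw [inner_smul_left, map_smul, inner_smul_right, b i _ k]
  simp

/-- **weak commutation in open regions** -/
theorem wk (R : M1 Q) (cv : ∀ s, 0 < s → Cov Q s GF.one 0) (hO : O ∈ 𝓝 (0 : V))
    (hb : Bornology.IsBounded O) (af : ∀ B f, Q.fld B → In O f → Aff M (B f)) (hS : IsOpen S)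
    {Y : Completion D →L[ℂ] Completion D} (hY : ∀ s y, 0 < s → sim s GF.one y '' O ⊆ S →
      ∀ X ∈ M, ∀ X' : Completion D →L[ℂ] Completion D,
        (∀ z, X' (Ue Q s GF.one y z) = Ue Q s GF.one y (X z)) → Y * X' = X' * Y)
    {B' : Fld D} (hB : Q.fld B) (hB' : Q.fld B')
    (ha : ∀ f v w, IsTest f → inner ℂ (B f v) w = inner ℂ v (B' (bar f) w)) (hf : In S f)
    (v w : D) : inner ℂ ((B' (bar f) w : D) : Completion D) (Y v) =
      inner ℂ (w : Completion D) (Y (B f v : D)) := by
  refine pou hO hb hS (P := fun f => inner ℂ ((B' (bar f) w : D) : Completion D) (Y v) =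
    inner ℂ (w : Completion D) (Y (B f v : D))) ?_ (fun f g a b p q => ?_)
    (fun s y f hs h a => wk1 R cv af hs (hY s y hs h) hB a (fun v w => ha f v w a.1) v w) hf
  · rw [show bar (fun _ => 0) = fun _ => 0 from funext fun _ => star_zero _, Fss.lin0 hB,
      Fss.lin0 hB']
    simp [Completion.coe_zero]
  · have l (C : Fld D) (hC : Q.fld C) {f g} (a : IsTest f) (b : IsTest g) (v) :
        C (fun x => f x + g x) v = C f v + C g v := by simpa using Q.lin C f g 1 v hC a b
    rw [show bar (fun x => f x + g x) = fun x => bar f x + bar g x from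
      funext fun _ => star_add _ _, l B hB a.1 b.1, l B' hB' (isTest_bar a.1) (isTest_bar b.1),
      Completion.coe_add, Completion.coe_add, map_add, inner_add_left, inner_add_right, p, q]

end Vale.Agent.P352R.Lc
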